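import Vale.Agent.P058.Descent

/-- A nonempty finite set in Euclidean space is Ramsey if and only if it satisfies the tensor
criterion over its coordinate field. -/
theorem Vale.Agent.Results.P058.Classify.result :
    ∀ (d : ℕ) (A : Finset (Vale.Agent.P058.Euc d)), A.Nonempty →
      (Vale.Agent.P058.IsRamsey A ↔ Vale.Agent.P058.TensorCriterion A) :=
  fun _ A hA => Vale.Agent.P058.ramsey_iff_criterion A hA
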