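import Vale.Agent.P058.Graham

open Vale.Agent.P058 in
/-- Classification of finite Euclidean Ramsey sets, with its consequences: subtransitive sets are
Ramsey, at most five concyclic points are Ramsey, the converse of the first statement fails, and
some spherical set is not Ramsey. -/
theorem Vale.Agent.Results.P058.Full.result :
    (∀ (d : ℕ) (A : Finset (Euc d)), A.Nonempty → (IsRamsey A ↔ TensorCriterion A)) ∧
    (∀ (d : ℕ) (A : Finset (Euc d)), A.Nonempty → IsSubtransitive A → IsRamsey A) ∧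
    (∃ A : Finset (Euc 2), A.Nonempty ∧ IsRamsey A ∧ ¬ IsSubtransitive A) ∧
    (∀ A : Finset (Euc 2), A.Nonempty → A.card ≤ 5 →
      (∃ (z : Euc 2) (ρ : ℝ), ∀ y ∈ A, dist y z = ρ) → IsRamsey A) ∧
    (∃ A : Finset (Euc 2), A.Nonempty ∧ IsSpherical A ∧ ¬ IsRamsey A) := by
  refine ⟨fun _ A hA => ramsey_iff_criterion A hA, fun _ A hA => ramsey_of_subtransitive A hA,
    exists_ramsey_not_subtransitive, fun A _ h ⟨z, ρ, hz⟩ => ramsey_of_concyclic A h z ρ hz, ?_⟩
  obtain ⟨A, hA, ⟨z, ρ, hz⟩, h⟩ := exists_concyclic_not_ramsey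
  exact ⟨A, hA, ⟨2, A, ⟨id, fun _ _ _ _ => rfl, by simp⟩, z, ρ, fun y hy => hz y hy⟩, h⟩
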